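import Vale.Agent.Lib.P371.CalBPoly

namespace Vale.Agent.Lib.P371.CalB.D3J9

/-- The monomials of `H`. -/
def hData : List Mon := [
  (0, 0, 0, 29908646),
  (0, 0, 1, 21730174),
  (0, 0, 2, 10150052),
  (0, 0, 3, 2088312),
  (0, 1, 0, (-11501137)),
  (0, 1, 1, (-19453331)),
  (0, 1, 2, (-10869168)),
  (0, 2, 0, 22200985),
  (0, 2, 1, 11896492),
  (0, 3, 0, (-14995415)),
  (1, 0, 0, (-4658723)),
  (1, 0, 1, 56072362),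
  (1, 0, 2, 89192001),
  (1, 0, 3, 34948265),
  (1, 1, 0, 106601376),
  (1, 1, 1, (-140267553)),
  (1, 1, 2, (-185239434)),
  (1, 2, 0, (-148721809)),
  (1, 2, 1, 13529921),
  (1, 3, 0, 22744727),
  (2, 0, 0, 189112499),
  (2, 0, 1, (-601865679)),
  (2, 0, 2, (-1390942896)),
  (2, 0, 3, (-569451686)),
  (2, 1, 0, (-960565215)),
  (2, 1, 1, 1944459096),
  (2, 1, 2, 2465970483),
  (2, 2, 0, 71688748),
  (2, 2, 1, (-905380997)),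
  (2, 3, 0, 641012397),
  (3, 0, 0, (-272095756)),
  (3, 0, 1, 4956869240),
  (3, 0, 2, 10702052989),
  (3, 0, 3, 4979023396),
  (3, 1, 0, (-1210777766)),
  (3, 1, 1, (-17827305157)),
  (3, 1, 2, (-15753593089)),
  (3, 2, 0, 9566722261),
  (3, 2, 1, 11426690679),
  (3, 3, 0, (-7408250750)),
  (4, 0, 0, (-4323737300)),
  (4, 0, 1, (-19094161491)),
  (4, 0, 2, (-37171039215)),
  (4, 0, 3, (-18447609109)),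
  (4, 1, 0, 30320782331),
  (4, 1, 1, 75558089761),
  (4, 1, 2, 50524252609),
  (4, 2, 0, (-64589063205)),
  (4, 2, 1, (-53768670959)),
  (4, 3, 0, 35826516587),
  (5, 0, 0, 18441057073),
  (5, 0, 1, 34791133058),
  (5, 0, 2, 66003122760),
  (5, 0, 3, 35510720566),
  (5, 1, 0, (-103906980990)),
  (5, 1, 1, (-160380865619)),
  (5, 1, 2, (-87589571202)),
  (5, 2, 0, 179838486857),
  (5, 2, 1, 122895532706),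
  (5, 3, 0, (-87997159871)),
  (6, 0, 0, (-30137831881)),
  (6, 0, 1, (-30111139808)),
  (6, 0, 2, (-63376394887)),
  (6, 0, 3, (-37687780681)),
  (6, 1, 0, 158310724085),
  (6, 1, 1, 180061023289),
  (6, 1, 2, 84613033693),
  (6, 2, 0, (-253591053596)),
  (6, 2, 1, (-148558823314)),
  (6, 3, 0, 117017022196),
  (7, 0, 0, 22292039328),
  (7, 0, 1, 10764641270),
  (7, 0, 2, 31478850248),
  (7, 0, 3, 21075558316),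
  (7, 1, 0, (-115219327361)),
  (7, 1, 1, (-102551953032)),
  (7, 1, 2, (-43026721879)),
  (7, 2, 0, 179937800378),
  (7, 2, 1, 91345134823),
  (7, 3, 0, (-81122686101)),
  (8, 0, 0, (-6210668415)),
  (8, 0, 1, (-781668144)),
  (8, 0, 2, (-6350562264)),
  (8, 0, 3, (-4851156182)),
  (8, 1, 0, 32565789928),
  (8, 1, 1, 23333671744),
  (8, 1, 2, 9024414908),
  (8, 2, 0, (-51218132361)),
  (8, 2, 1, (-22366825774)),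
  (8, 3, 0, 23170824503)]

/-- Split tree for `τ`. -/
def treeT : Tree := (.n1 (.n3 .leaf (.n2 .leaf .leaf)) (.n3 (.n2 (.n3 (.n1 .leaf (.n2 (.n1 .leaf (.n3 (.n1 .leaf (.n2 .leaf .leaf)) (.n1 .leaf (.n2 .leaf .leaf)))) .leaf)) (.n2 (.n1 .leaf (.n1 .leaf (.n3 (.n1 .leaf (.n2 .leaf .leaf)) (.n1 .leaf (.n2 .leaf .leaf))))) .leaf)) .leaf) (.n3 (.n2 (.n1 .leaf (.n1 .leaf (.n3 (.n2 (.n1 .leaf (.n1 .leaf (.n2 .leaf (.n1 .leaf (.n2 .leaf .leaf))))) .leaf) (.n2 (.n1 .leaf (.n1 .leaf (.n2 .leaf .leaf))) .leaf)))) .leaf) (.n2 .leaf .leaf))))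

/-- Split tree for `q`. -/
def treeQ : Tree := (.n1 (.n3 (.n3 .leaf (.n3 (.n3 .leaf (.n2 .leaf (.n1 .leaf .leaf))) (.n2 .leaf (.n2 .leaf (.n1 (.n2 .leaf (.n3 .leaf (.n2 .leaf (.n1 .leaf .leaf)))) .leaf))))) (.n3 (.n2 .leaf (.n3 (.n1 (.n2 .leaf (.n1 .leaf .leaf)) (.n2 .leaf (.n2 .leaf .leaf))) (.n2 (.n1 .leaf (.n2 .leaf (.n1 .leaf .leaf))) (.n1 (.n1 (.n1 (.n2 .leaf .leaf) (.n2 .leaf (.n2 .leaf .leaf))) (.n2 .leaf .leaf)) (.n3 (.n3 (.n2 .leaf .leaf) (.n2 .leaf .leaf)) (.n2 (.n1 .leaf .leaf) .leaf)))))) (.n2 .leaf (.n1 (.n3 (.n2 .leaf (.n2 .leaf .leaf)) (.n2 .leaf .leaf)) (.n2 (.n3 (.n1 (.n2 .leaf .leaf) (.n2 .leaf .leaf)) (.n1 .leaf (.n2 .leaf .leaf))) (.n1 (.n3 (.n2 .leaf .leaf) .leaf) .leaf)))))) (.n3 (.n3 (.n2 (.n1 (.n3 (.n2 (.n1 .leaf .leaf) .leaf) (.n2 (.n1 .leaf .leaf) .leaf)) (.n3 (.n2 .leaf (.n1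 (.n3 (.n1 (.n2 .leaf (.n1 .leaf .leaf)) .leaf) (.n1 (.n2 .leaf .leaf) .leaf)) .leaf)) (.n2 .leaf (.n1 (.n1 (.n2 .leaf .leaf) .leaf) .leaf)))) (.n3 (.n1 .leaf (.n2 (.n1 (.n2 (.n1 .leaf .leaf) .leaf) .leaf) (.n2 (.n1 .leaf .leaf) (.n1 .leaf (.n2 .leaf (.n3 (.n2 .leaf (.n1 .leaf .leaf)) (.n2 .leaf (.n1 .leaf .leaf)))))))) (.n2 (.n1 .leaf (.n1 .leaf .leaf)) (.n1 .leaf (.n2 .leaf (.n1 .leaf (.n2 .leaf (.n2 .leaf (.n1 .leaf .leaf))))))))) (.n2 (.n1 (.n3 (.n3 (.n1 .leaf (.n2 .leaf .leaf)) (.n1 .leaf (.n2 .leaf .leaf))) (.n1 .leaf .leaf)) (.n2 (.n3 (.n1 .leaf (.n1 .leaf (.n2 .leaf .leaf))) (.n1 .leaf (.n1 .leaf (.n2 .leaf .leaf)))) (.n3 (.n1 (.n1 (.n2 .leaf .leaf) .leaf) .leaf) (.n1 .leaf .leaf)))) (.n2 (.n1 (.n3 .leaf (.n3 .leaf .leaf)) (.n3 (.n1 (.n3 (.n1 .leaf .leaf) (.n1 (.n3 .leaf (.n2 .leaf .leaf)) .leaf))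 .leaf) (.n1 (.n1 (.n3 (.n3 (.n2 .leaf .leaf) (.n2 .leaf .leaf)) .leaf) .leaf) .leaf))) (.n1 (.n3 .leaf .leaf) (.n2 (.n1 (.n3 .leaf .leaf) .leaf) (.n1 (.n3 .leaf .leaf) (.n2 .leaf (.n3 (.n2 .leaf (.n1 .leaf (.n2 .leaf (.n3 .leaf .leaf)))) .leaf)))))))) (.n3 (.n1 (.n3 (.n2 (.n1 (.n2 .leaf (.n2 .leaf .leaf)) (.n3 .leaf (.n1 (.n2 .leaf .leaf) .leaf))) (.n1 (.n2 (.n3 .leaf (.n2 .leaf .leaf)) (.n2 (.n3 .leaf .leaf) .leaf)) (.n2 .leaf .leaf))) (.n3 (.n2 (.n1 (.n2 .leaf (.n2 .leaf (.n1 .leaf .leaf))) (.n1 (.n2 .leaf .leaf) .leaf)) (.n2 (.n1 (.n1 .leaf .leaf) .leaf) .leaf)) (.n2 (.n1 (.n2 .leaf (.n1 .leaf (.n2 .leaf .leaf))) .leaf) (.n1 (.n2 (.n1 (.n2 .leaf .leaf) .leaf) .leaf) .leaf)))) (.n2 (.n3 (.n1 .leaf (.n1 .leaf (.n2 (.n1 .leaf (.n3 (.n1 .leaf (.n2 .leaf .leaf)) .leaf)) (.n1 .leaf (.n2 .leaf (.n1 .leaf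 (.n3 .leaf (.n1 .leaf (.n1 .leaf (.n3 .leaf .leaf)))))))))) (.n1 .leaf (.n3 (.n1 .leaf (.n1 .leaf (.n2 .leaf .leaf))) .leaf))) (.n1 (.n3 .leaf .leaf) (.n3 (.n2 (.n1 .leaf (.n1 .leaf (.n2 (.n3 .leaf (.n1 .leaf (.n1 .leaf (.n2 (.n3 .leaf (.n1 .leaf (.n1 .leaf (.n3 (.n2 (.n1 .leaf (.n1 .leaf (.n3 .leaf .leaf))) (.n1 .leaf (.n3 .leaf (.n1 .leaf (.n2 (.n1 .leaf (.n1 .leaf (.n3 .leaf .leaf))) .leaf))))) (.n1 .leaf (.n3 (.n1 .leaf (.n2 .leaf .leaf)) .leaf)))))) (.n3 .leaf .leaf))))) .leaf))) .leaf) (.n1 .leaf (.n2 .leaf (.n1 .leaf (.n3 .leaf (.n2 .leaf (.n1 .leaf (.n3 .leaf .leaf))))))))))) (.n1 (.n2 (.n3 (.n1 (.n2 .leaf (.n1 .leaf .leaf)) .leaf) (.n2 .leaf .leaf)) (.n3 (.n3 (.n3 (.n1 (.n2 (.n1 (.n2 .leaf .leaf) .leaf) .leaf) .leaf) (.n2 (.n1 (.n1 (.n2 .leaf .leaf) .leaf) .leaf) .leaf)) (.n2 (.n1 (.n2 .leaf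 .leaf) .leaf) .leaf)) (.n2 .leaf .leaf))) .leaf))))

theorem checks : allChecks 24 2 1000 hData 18 6 12 8 2 4 478 32 treeQ treeT = true := by
  decide +kernel

theorem start0_eq : start0 hData = 25613079 := by
  decide +kernel

theorem sumAbs_eq : sumAbs hData = 3363932408320 := by
  decide +kernel

end Vale.Agent.Lib.P371.CalB.D3J9
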